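import Vale.Agent.P174k.Final
import Vale.Agent.P174.Defs

/-!
# P174: comparison of two sets of definitions
-/

namespace P174

open Monoid

theorem expVec_eq {G : Type} [Group G] {n : ℕ} (u : Wd G (Fin n)) (k : Fin n) :
    Vale.Agent.P174.expVec u k = Multiplicative.toAdd (expo u) k := by
  let c : (Fin n →₀ ℤ) →+ (Fin n → ℤ) := Finsupp.coeFnAddHom
  have h : (AddMonoidHom.toMultiplicative c).comp (Vale.Agent.P174.expHom G (Fin n)) =
      expo (G := G) (κ := Fin n) := by
    apply wd_hom_ext
    · intro a
      simp [Vale.Agent.P174.expHom, expo]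
    · intro j
      apply Multiplicative.toAdd.injective
      simp only [Vale.Agent.P174.expHom, expo, MonoidHom.coe_comp, Function.comp_apply,
        Coprod.lift_apply_inr, FreeGroup.lift_apply_of]
      show ⇑(Finsupp.single j (1 : ℤ)) = Pi.single j 1
      exact Finsupp.single_eq_pi_single j 1
  rw [← h]
  rfl

theorem solv_iff {G : Type} [Group G] {m n : ℕ} (w : Fin m → Wd G (Fin n)) :
    Vale.Agent.P174.SolvableOver w ↔ SolvableOver w := Iff.rfl

theorem rank_iff {K : Type} [Field K] {m n : ℕ} (A : Matrix (Fin m) (Fin n) K) :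
    A.rank = m ↔ LinearIndependent K (fun i => A i) := by
  rw [linearIndependent_iff_card_eq_finrank_span, Matrix.rank_eq_finrank_span_row,
    Fintype.card_fin]
  exact eq_comm

theorem nonsing_iff {G K : Type} [Group G] [Field K] {m n : ℕ} (w : Fin m → Wd G (Fin n)) :
    ((Vale.Agent.P174.expMatrix w).map (Int.cast : ℤ → K)).rank = m ↔
      LinearIndependent K (fun i (k : Fin n) =>
        ((Multiplicative.toAdd (expo (w i)) k : ℤ) : K)) := by
  rw [rank_iff]
  have h : (fun i => ((Vale.Agent.P174.expMatrix w).map (Int.cast : ℤ → K)) i) =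
      fun i (k : Fin n) => ((Multiplicative.toAdd (expo (w i)) k : ℤ) : K) := by
    funext i k
    show (Int.cast : ℤ → K) (Vale.Agent.P174.expVec (w i) k) = _
    rw [expVec_eq]
  rw [h]

theorem howie_eq {G : Type} [Group G] : Vale.Agent.P174.Howie G ↔ Howie G := by
  constructor
  · intro h m n w hw
    exact h m n w ((nonsing_iff w).2 hw)
  · intro h m n w hw
    exact h m n w ((nonsing_iff w).1 hw)

theorem howieMod_eq {p : ℕ} (hp : p.Prime) {G : Type} [Group G] :
    Vale.Agent.P174.HowieMod p G ↔ HowieMod p G := by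
  have : Fact p.Prime := ⟨hp⟩
  constructor
  · intro h m n w hw
    exact h m n w ((nonsing_iff w).2 hw)
  · intro h m n w hw
    exact h m n w ((nonsing_iff w).1 hw)

end P174
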