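import Vale.Agent.P174k.Final2

/-!
# P174: commutative groups
-/

namespace P174

open Monoid

/-- evaluation in a commutative group -/
theorem ev_comm {G D : Type} [Group G] [AddCommGroup D] {n : ℕ} (φ : G →* Multiplicative D)
    (y : Fin n → D) (u : Wd G (Fin n)) :
    Multiplicative.toAdd (ev φ (fun k => Multiplicative.ofAdd (y k)) u) =
      Multiplicative.toAdd (ev φ (fun _ => 1) u) +
        ∑ k, (Multiplicative.toAdd (expo u) k) • y k := by
  let L : (Fin n → ℤ) →+ D :=
    { toFun := fun v => ∑ k, v k • y k
      map_zero' := by simp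
      map_add' := by
        intro a b
        simp [add_smul, Finset.sum_add_distrib] }
  have h : ev φ (fun k => Multiplicative.ofAdd (y k)) =
      ev φ (fun _ => 1) * (AddMonoidHom.toMultiplicative L).comp (expo (G := G) (κ := Fin n)) := by
    apply wd_hom_ext
    · intro a
      simp [expo]
    · intro k
      apply Multiplicative.toAdd.injective
      simp only [MonoidHom.mul_apply, ev_of, expo, MonoidHom.coe_comp, Function.comp_apply,
        Coprod.lift_apply_inr, FreeGroup.lift_apply_of,
        AddMonoidHom.toMultiplicative_apply_apply, toAdd_ofAdd, one_mul]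
      show y k = ∑ k', (Pi.single k (1 : ℤ) : Fin n → ℤ) k' • y k'
      rw [Finset.sum_eq_single k]
      · simp
      · intro b _ hb
        simp [Pi.single_eq_of_ne hb]
      · simp
  rw [h]
  rfl

/-- the integral form of nonsingularity -/
theorem int_inv {m n : ℕ} (a : Fin m → Fin n → ℤ)
    (h : LinearIndependent ℚ (fun i k => ((a i k : ℤ) : ℚ))) :
    ∃ (d : ℕ) (z : Fin m → Fin n → ℤ), d ≠ 0 ∧
      ∀ i j, ∑ k, a i k * z j k = if i = j then (d : ℤ) else 0 := by
  classical
  let A : Matrix (Fin m) (Fin n) ℚ := fun i k => ((a i k : ℤ) : ℚ)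
  have hr : A.rank = Fintype.card (Fin m) := by
    have : LinearIndependent ℚ A.row := h
    exact this.rank_matrix
  have h2 : Module.finrank ℚ (LinearMap.range A.mulVecLin) =
      Module.finrank ℚ (Fin m → ℚ) := by
    rw [Module.finrank_fintype_fun_eq_card]
    exact hr
  have h3 := Submodule.eq_top_of_finrank_eq h2
  have h4 : ∀ j : Fin m, ∃ y : Fin n → ℚ, A.mulVec y = Pi.single j 1 := by
    intro j
    have : (Pi.single j 1 : Fin m → ℚ) ∈ LinearMap.range A.mulVecLin := by
      rw [h3]
      trivial
    exact this
  choose y hy using h4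
  let d : ℕ := ∏ j, ∏ k, (y j k).den
  have hd : d ≠ 0 := Finset.prod_ne_zero_iff.2 fun j _ => Finset.prod_ne_zero_iff.2
    fun k _ => (y j k).den_ne_zero
  have hint : ∀ j k, ∃ z : ℤ, (z : ℚ) = d * y j k := by
    intro j k
    obtain ⟨e, he⟩ : (y j k).den ∣ d :=
      (Finset.dvd_prod_of_mem _ (Finset.mem_univ k)).trans
        (Finset.dvd_prod_of_mem (fun j => ∏ k, (y j k).den) (Finset.mem_univ j))
    refine ⟨e * (y j k).num, ?_⟩
    rw [he]
    push_cast
    have h1 : ((y j k).den : ℚ) * y j k = (y j k).num := Rat.den_mul_eq_num (y j k)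
    rw [mul_comm ((y j k).den : ℚ) e, mul_assoc, h1]
  choose z hz using hint
  refine ⟨d, z, hd, fun i j => ?_⟩
  have h1 : ((∑ k, a i k * z j k : ℤ) : ℚ) = ((if i = j then (d : ℤ) else 0 : ℤ) : ℚ) := by
    push_cast
    have h2 := congrFun (hy j) i
    have h3 : ∑ k, (a i k : ℚ) * (z j k : ℚ) = d * (A.mulVec (y j)) i := by
      show _ = (d : ℚ) * ∑ k, (a i k : ℚ) * y j k
      rw [Finset.mul_sum]
      apply Finset.sum_congr rfl
      intro k _
      rw [hz j k]
      ring
    rw [h3, h2]
    by_cases hij : i = j
    · subst hij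
      simp
    · simp [hij]
  exact_mod_cast h1

/-- Howie's conjecture holds for commutative groups -/
theorem howie_comm {N : Type} [Group N] (hc : ∀ a b : N, a * b = b * a) : Howie N := by
  classical
  let _ : CommGroup N := { (inferInstance : Group N) with mul_comm := hc }
  intro m n w hw
  obtain ⟨d, z, hd, hz⟩ := int_inv _ hw
  let D := AddCircle (1 : ℚ)
  have hdiv : ∀ b : D, ∃ c : D, d • c = b := by
    intro b
    obtain ⟨r, rfl⟩ := QuotientAddGroup.mk_surjective b
    refine ⟨((r / d : ℚ) : AddCircle (1 : ℚ)), ?_⟩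
    have hd' : (d : ℚ) ≠ 0 := by exact_mod_cast hd
    rw [← AddCircle.coe_nsmul, nsmul_eq_mul, mul_div_cancel₀ _ hd']
  -- solve for every character
  have hsol : ∀ φ : N →* Multiplicative D, ∃ x : Fin n → Multiplicative D,
      ∀ i, ev φ x (w i) = 1 := by
    intro φ
    choose c hcc using fun i => hdiv (-(Multiplicative.toAdd (ev φ (fun _ => 1) (w i))))
    let y : Fin n → D := fun k => ∑ j, z j k • c j
    refine ⟨fun k => Multiplicative.ofAdd (y k), fun i => ?_⟩
    apply Multiplicative.toAdd.injective
    rw [ev_comm]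
    have h1 : ∑ k, (Multiplicative.toAdd (expo (w i)) k) • y k = d • c i := by
      calc ∑ k, (Multiplicative.toAdd (expo (w i)) k) • y k
          = ∑ j, (∑ k, (Multiplicative.toAdd (expo (w i)) k) * z j k) • c j := by
            simp only [y, Finset.smul_sum, Finset.sum_smul, smul_smul]
            rw [Finset.sum_comm]
        _ = ∑ j, (if i = j then (d : ℤ) else 0) • c j := by
            apply Finset.sum_congr rfl
            intro j _
            rw [hz i j]
        _ = d • c i := by
            rw [Finset.sum_eq_single i]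
            · simp
            · intro b _ hb
              simp [Ne.symm hb]
            · simp
    rw [h1, hcc i]
    simp
  choose x hx using hsol
  refine ⟨∀ _ : (N →* Multiplicative D), Multiplicative D, inferInstance,
    MonoidHom.pi fun φ => φ, fun k φ => x φ k, ?_, ?_⟩
  · rw [injective_iff_map_eq_one]
    intro g hg
    by_contra hne
    have hne' : (Additive.ofMul g : Additive N) ≠ 0 := fun h => hne (Additive.ofMul.injective h)
    obtain ⟨c, hcg⟩ := CharacterModule.exists_character_apply_ne_zero_of_ne_zero hne'
    apply hcg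
    have h1 := congrFun hg (AddMonoidHom.toMultiplicativeRight (c : Additive N →+ D))
    exact h1
  · intro i
    funext φ
    show (Pi.evalMonoidHom (fun _ : (N →* Multiplicative D) => Multiplicative D) φ)
      (ev _ _ (w i)) = 1
    rw [comp_ev_apply]
    exact hx φ i

end P174
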