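import Mathlib

/-!
# P174: systems of equations over groups
-/

namespace P174

/-- `G * F(κ)`: words with coefficients in `G` and unknowns indexed by `κ` -/
abbrev Wd (G κ : Type) [Group G] : Type := Monoid.Coprod G (FreeGroup κ)

/-- evaluation of a word: coefficients by `φ`, unknowns by `x` -/
def ev {G H κ : Type} [Group G] [Group H] (φ : G →* H) (x : κ → H) : Wd G κ →* H :=
  Monoid.Coprod.lift φ (FreeGroup.lift x)

/-- the exponent sums of a word: the homomorphism to `ℤ^κ` which kills the coefficients -/
def expo {G κ : Type} [Group G] [DecidableEq κ] : Wd G κ →* Multiplicative (κ → ℤ) :=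
  Monoid.Coprod.lift 1 (FreeGroup.lift fun k => Multiplicative.ofAdd (Pi.single k 1))

/-- the system `w i = 1` has a solution in some group containing `G` -/
def SolvableOver {G κ ι : Type} [Group G] (w : ι → Wd G κ) : Prop :=
  ∃ (H : Type) (_ : Group H) (φ : G →* H) (x : κ → H),
    Function.Injective φ ∧ ∀ i, ev φ x (w i) = 1

/-- the exponent-sum matrix has rational rank equal to the number of equations -/
def Nonsingular {G : Type} [Group G] {m n : ℕ} (w : Fin m → Wd G (Fin n)) : Prop :=
  LinearIndependent ℚ (fun i (k : Fin n) => ((Multiplicative.toAdd (expo (w i)) k : ℤ) : ℚ))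

/-- the exponent-sum matrix has rank mod `p` equal to the number of equations -/
def PNonsingular (p : ℕ) {G : Type} [Group G] {m n : ℕ} (w : Fin m → Wd G (Fin n)) : Prop :=
  LinearIndependent (ZMod p)
    (fun i (k : Fin n) => ((Multiplicative.toAdd (expo (w i)) k : ℤ) : ZMod p))

/-- Howie's conjecture holds for `G` -/
def Howie (G : Type) [Group G] : Prop :=
  ∀ (m n : ℕ) (w : Fin m → Wd G (Fin n)), Nonsingular w → SolvableOver w

/-- every finite `p`-nonsingular system over `G` is solvable over `G` -/
def HowieMod (p : ℕ) (G : Type) [Group G] : Prop :=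
  ∀ (m n : ℕ) (w : Fin m → Wd G (Fin n)), PNonsingular p w → SolvableOver w

/-- every nontrivial element survives in a finite quotient which is a `p`-group -/
def ResiduallyFinP (p : ℕ) (Q : Type) [Group Q] : Prop :=
  ∀ g : Q, g ≠ 1 → ∃ (P : Type) (_ : Group P) (_ : Finite P) (f : Q →* P),
    IsPGroup p P ∧ f g ≠ 1

end P174
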