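import Vale.Agent.P174k.Wr

/-!
# P174: the coordinate system of a p-nonsingular system is p-nonsingular
-/

namespace P174

open Monoid

section

variable {V Q P : Type} [Group V] [Group Q] [Group P]

/-- pairs of elements of two wreath products which match along `π` -/
def match_ (V : Type) [Group V] (π : Q →* P) : Subgroup ((V ≀ᵣ Q) × (V ≀ᵣ P)) where
  carrier := {a | a.2.right = π a.1.right ∧ ∀ σ, a.1.left σ = a.2.left (π σ)}
  mul_mem' := by
    rintro ⟨a, c⟩ ⟨a', c'⟩ ⟨h1, h2⟩ ⟨h1', h2'⟩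
    simp only at h1 h2 h1' h2'
    refine ⟨?_, fun σ => ?_⟩
    · show c.right * c'.right = π (a.right * a'.right)
      rw [map_mul, h1, h1']
    · show a.left σ * a'.left (a.right⁻¹ * σ) = c.left (π σ) * c'.left (c.right⁻¹ * π σ)
      rw [h2, h2', h1, map_mul, map_inv]
  one_mem' := ⟨(map_one π).symm, fun σ => rfl⟩
  inv_mem' := by
    rintro ⟨a, c⟩ ⟨h1, h2⟩
    simp only at h1 h2
    refine ⟨?_, fun σ => ?_⟩
    · show c.right⁻¹ = π (a.right⁻¹)
      rw [map_inv, h1]
    · show (a.left (a.right * σ))⁻¹ = (c.left (c.right * π σ))⁻¹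
      rw [h2, h1, map_mul]

end

section

variable {N Q κ ι : Type} [Group N] [Group Q]

theorem isPGroup_wreath {p : ℕ} (hp : p.Prime) {P : Type} [Group P] [Finite P]
    (hP : IsPGroup p P) : IsPGroup p (Multiplicative (ZMod p) ≀ᵣ P) := by
  have : Fact p.Prime := ⟨hp⟩
  obtain ⟨k, hk⟩ := IsPGroup.iff_card.1 hP
  apply IsPGroup.of_card (n := Nat.card P + k)
  rw [RegularWreathProduct.card]
  have h1 : Nat.card (Multiplicative (ZMod p)) = p := by
    show Nat.card (ZMod p) = p
    simp
  rw [h1, pow_add]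
  congr 1

theorem dp_coord {p : ℕ} (hp : p.Prime) (q : κ → Q) (w : ι → Wd (N ≀ᵣ Q) κ)
    (hsep : ∀ F : Finset Q, ∃ (P : Type) (_ : Group P) (_ : Finite P) (π : Q →* P),
      IsPGroup p P ∧ Set.InjOn π (F : Set Q))
    (hw : Dp p w) (hq : ∀ i, ev RegularWreathProduct.rightHom q (w i) = 1)
    (S : Finset (ι × Q)) : Dp p (fun t : S => cw q w t) := by
  classical
  intro b
  have : Fact p.Prime := ⟨hp⟩
  obtain ⟨P, _, _, π, hP, hπ⟩ := hsep (S.image Prod.snd)
  -- the target
  let bl : ι → P → Multiplicative (ZMod p) := fun i τ =>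
    if h : ∃ t : S, t.1.1 = i ∧ π t.1.2 = τ then Multiplicative.ofAdd (b h.choose) else 1
  have hbl : ∀ t : S, bl t.1.1 (π t.1.2) = Multiplicative.ofAdd (b t) := by
    intro t
    have h : ∃ t' : S, t'.1.1 = t.1.1 ∧ π t'.1.2 = π t.1.2 := ⟨t, rfl, rfl⟩
    have h1 : bl t.1.1 (π t.1.2) = Multiplicative.ofAdd (b h.choose) := dif_pos h
    rw [h1]
    have h2 := h.choose_spec
    have h3 : h.choose = t := by
      apply Subtype.ext
      apply Prod.ext
      · exact h2.1
      · apply hπ
        · exact Finset.mem_coe.2 (Finset.mem_image_of_mem _ h.choose.2)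
        · exact Finset.mem_coe.2 (Finset.mem_image_of_mem _ t.2)
        · exact h2.2
    rw [h3]
  let bh : ι → Multiplicative (ZMod p) ≀ᵣ P := fun i => ⟨bl i, 1⟩
  let c : N ≀ᵣ Q →* Multiplicative (ZMod p) ≀ᵣ P :=
    RegularWreathProduct.inl.comp (π.comp RegularWreathProduct.rightHom)
  let x0 : κ → Multiplicative (ZMod p) ≀ᵣ P := fun j => RegularWreathProduct.inl (π (q j))
  obtain ⟨x, hx1, hx2⟩ := rel_p hp _ (Multiplicative (ZMod p) ≀ᵣ P) rfl (isPGroup_wreath hp hP)
    (RegularWreathProduct.rightHom (D := Multiplicative (ZMod p)) (Q := P)).ker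
    (fun i => Coprod.map c (MonoidHom.id (FreeGroup κ)) (w i)) (hw.map c) x0 bh (by
      intro i
      rw [MonoidHom.mem_ker, map_mul, map_inv, ev_map, comp_ev_apply]
      have h1 : ev ((RegularWreathProduct.rightHom (D := Multiplicative (ZMod p)) (Q := P)).comp
          ((MonoidHom.id (Multiplicative (ZMod p) ≀ᵣ P)).comp c))
          (fun k => RegularWreathProduct.rightHom (x0 k)) (w i) =
          π (ev RegularWreathProduct.rightHom q (w i)) := by
        rw [comp_ev_apply]
        rfl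
      rw [h1, hq i, map_one]
      show (1 : P)⁻¹ * 1 = 1
      simp)
  have hx3 : ∀ k, (x k).right = π (q k) := by
    intro k
    have h1 := hx1 k
    rw [MonoidHom.mem_ker] at h1
    have h2 : (x k).right⁻¹ * π (q k) = 1 := h1
    exact inv_mul_eq_one.1 h2
  refine ⟨fun t => Multiplicative.toAdd ((x t.1).left (π t.2)), fun t => ?_⟩
  let X : κ → Multiplicative (ZMod p) ≀ᵣ Q := fun j => ⟨fun σ => (x j).left (π σ), q j⟩
  -- the left hand side is a coordinate of an evaluation in the wreath product over `Q`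
  have h1 : chi (fun t => Multiplicative.toAdd ((x t.1).left (π t.2))) (cw q w t.1) =
      (ev (wmap (1 : N →* Multiplicative (ZMod p))) X (w t.1.1)).left t.1.2 := by
    have := wmap_Phi q (1 : N →* Multiplicative (ZMod p))
      (fun t => (x t.1).left (π t.2)) (w t.1.1)
    show _ = (ev (wmap (1 : N →* Multiplicative (ZMod p))) (fun j =>
      (⟨fun σ => (x j).left (π σ), q j⟩ : Multiplicative (ZMod p) ≀ᵣ Q)) (w t.1.1)).left t.1.2
    rw [← this]
    rfl
  rw [h1, ← hbl t]
  -- compare with the evaluation over `P`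
  have h2 : ev ((wmap (1 : N →* Multiplicative (ZMod p))).prod c) (fun j => (X j, x j))
      (w t.1.1) ∈ match_ (Multiplicative (ZMod p)) π := by
    apply ev_mem
    · intro g
      exact ⟨rfl, fun σ => rfl⟩
    · intro j
      exact ⟨hx3 j, fun σ => rfl⟩
  have h3 := comp_ev_apply (MonoidHom.fst _ _) ((wmap (1 : N →* Multiplicative (ZMod p))).prod c)
    (fun j => (X j, x j)) (w t.1.1)
  have h4 := comp_ev_apply (MonoidHom.snd _ _) ((wmap (1 : N →* Multiplicative (ZMod p))).prod c)
    (fun j => (X j, x j)) (w t.1.1)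
  have h5 := h2.2 t.1.2
  have h6 : ev (wmap (1 : N →* Multiplicative (ZMod p))) X (w t.1.1) =
      (ev ((wmap (1 : N →* Multiplicative (ZMod p))).prod c) (fun j => (X j, x j))
      (w t.1.1)).1 := h3.symm
  have h7 : (ev ((wmap (1 : N →* Multiplicative (ZMod p))).prod c) (fun j => (X j, x j))
      (w t.1.1)).2 = bh t.1.1 := by
    rw [← hx2 t.1.1, ev_map]
    exact h4
  rw [h6, h5, h7]

end

end P174
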