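import Vale.Agent.P174k.Dpc

/-!
# P174: the Kaloujnine-Krasner embedding and the extension theorem for a fixed prime
-/

namespace P174

open Monoid

section

variable {G Q : Type} [Group G] [Group Q]

/-- representatives of the right cosets of the image -/
noncomputable def rr (θ : G →* Q) (x : Q) : Q :=
  (Quotient.mk (QuotientGroup.rightRel θ.range) x).out

theorem rr_rel (θ : G →* Q) (x : Q) : ∃ g, θ g = x * (rr θ x)⁻¹ := by
  have h := Quotient.mk_out (s := QuotientGroup.rightRel θ.range) x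
  have h1 : (QuotientGroup.rightRel θ.range) (rr θ x) x := h
  rw [QuotientGroup.rightRel_apply] at h1
  exact h1

theorem rr_mul (θ : G →* Q) (g : G) (x : Q) : rr θ (θ g * x) = rr θ x := by
  unfold rr
  congr 1
  apply Quotient.sound
  show (QuotientGroup.rightRel θ.range) (θ g * x) x
  rw [QuotientGroup.rightRel_apply]
  refine ⟨g⁻¹, ?_⟩
  rw [map_inv]
  group

noncomputable def ss (θ : G →* Q) (x : Q) : G := (rr_rel θ x).choose

theorem ss_spec (θ : G →* Q) (x : Q) : θ (ss θ x) = x * (rr θ x)⁻¹ := (rr_rel θ x).choose_spec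

theorem kk_mem (θ : G →* Q) (g : G) (x : Q) :
    (ss θ x)⁻¹ * g * ss θ ((θ g)⁻¹ * x) ∈ θ.ker := by
  rw [MonoidHom.mem_ker, map_mul, map_mul, map_inv, ss_spec, ss_spec]
  have h : rr θ ((θ g)⁻¹ * x) = rr θ x := by
    have := rr_mul θ g⁻¹ x
    rwa [map_inv] at this
  rw [h]
  group

/-- the Kaloujnine-Krasner embedding -/
noncomputable def kk (θ : G →* Q) : G →* θ.ker ≀ᵣ Q where
  toFun g := ⟨fun x => ⟨(ss θ x)⁻¹ * g * ss θ ((θ g)⁻¹ * x), kk_mem θ g x⟩, θ g⟩
  map_one' := by
    apply RegularWreathProduct.ext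
    · funext x
      apply Subtype.ext
      show (ss θ x)⁻¹ * 1 * ss θ ((θ 1)⁻¹ * x) = 1
      simp
    · exact map_one θ
  map_mul' g h := by
    apply RegularWreathProduct.ext
    · funext x
      apply Subtype.ext
      show (ss θ x)⁻¹ * (g * h) * ss θ ((θ (g * h))⁻¹ * x) =
        ((ss θ x)⁻¹ * g * ss θ ((θ g)⁻¹ * x)) *
          ((ss θ ((θ g)⁻¹ * x))⁻¹ * h * ss θ ((θ h)⁻¹ * ((θ g)⁻¹ * x)))
      rw [map_mul, mul_inv_rev, mul_assoc (θ h)⁻¹ (θ g)⁻¹ x]
      group
    · exact map_mul θ g h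

theorem kk_injective (θ : G →* Q) : Function.Injective (kk θ) := by
  rw [injective_iff_map_eq_one]
  intro g hg
  have h1 : θ g = 1 := by
    have : (kk θ g).right = 1 := by rw [hg]; rfl
    exact this
  have h2 : (((kk θ g).left 1 : θ.ker) : G) = 1 := by rw [hg]; rfl
  have h3 : (ss θ 1)⁻¹ * g * ss θ ((θ g)⁻¹ * 1) = 1 := h2
  rw [h1, inv_one, one_mul] at h3
  have h4 : g = ss θ 1 * ((ss θ 1)⁻¹ * g * ss θ 1) * (ss θ 1)⁻¹ := by group
  rw [h4, h3]
  group

theorem SolvableOver.of_map {κ ι G' : Type} [Group G'] (c : G →* G') (hc : Function.Injective c)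
    (w : ι → Wd G κ)
    (h : SolvableOver (fun i => Coprod.map c (MonoidHom.id (FreeGroup κ)) (w i))) :
    SolvableOver w := by
  obtain ⟨H, _, φ, x, hφ, hx⟩ := h
  refine ⟨H, inferInstance, φ.comp c, x, ?_, fun i => ?_⟩
  · exact hφ.comp hc
  · rw [← ev_map]
    exact hx i

theorem HowieMod.of_equiv {p : ℕ} {G' : Type} [Group G'] (e : G' ≃* G) (h : HowieMod p G) :
    HowieMod p G' := by
  intro m n w hw
  apply SolvableOver.of_map e.toMonoidHom e.injective
  apply h
  have : ∀ u : Wd G' (Fin n), expo (Coprod.map e.toMonoidHom (MonoidHom.id (FreeGroup (Fin n))) u) =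
      expo u := by
    intro u
    have h1 : (expo (G := G) (κ := Fin n)).comp
        (Coprod.map e.toMonoidHom (MonoidHom.id (FreeGroup (Fin n)))) = expo := by
      apply wd_hom_ext
      · intro a
        simp [expo]
      · intro k
        simp [expo]
    rw [← h1]
    rfl
  unfold PNonsingular
  simp only [this]
  exact hw

end

theorem isPGroup_pi {p : ℕ} {A : Type} [Finite A] {P : A → Type} [∀ a, Group (P a)]
    (h : ∀ a, IsPGroup p (P a)) : IsPGroup p (∀ a, P a) := by
  classical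
  have := Fintype.ofFinite A
  intro x
  choose k hk using fun a => h a (x a)
  refine ⟨Finset.univ.sup k, ?_⟩
  funext a
  show x a ^ p ^ _ = 1
  have h1 : k a ≤ Finset.univ.sup k := Finset.le_sup (Finset.mem_univ a)
  obtain ⟨d, hd⟩ := Nat.exists_eq_add_of_le h1
  rw [hd, pow_add, pow_mul, hk a, one_pow]

/-- the extension theorem for a fixed prime -/
theorem howieMod_ext {p : ℕ} (hp : p.Prime) {G : Type} [Group G] (N : Subgroup G) [N.Normal]
    (hN : HowieMod p N) (hQ : ResiduallyFinP p (G ⧸ N)) : HowieMod p G := by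
  classical
  have : Fact p.Prime := ⟨hp⟩
  intro m n w hw
  have hw' : Dp p w := (dp_iff w).2 hw
  let A : Type := {g : G ⧸ N // g ≠ 1}
  choose P iG iF f hPp hf using fun a : A => hQ a.1 a.2
  let θ : G →* (∀ a, P a) := MonoidHom.pi fun a => (f a).comp (QuotientGroup.mk' N)
  have hker : θ.ker = N := by
    ext g
    rw [MonoidHom.mem_ker]
    constructor
    · intro h
      by_contra hg
      have h1 : (QuotientGroup.mk' N) g ≠ 1 := by
        intro h2
        apply hg
        rw [← QuotientGroup.eq_one_iff]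
        exact h2
      exact hf ⟨_, h1⟩ (congrFun h ⟨_, h1⟩)
    · intro h
      funext a
      show f a (QuotientGroup.mk' N g) = 1
      have : QuotientGroup.mk' N g = 1 := (QuotientGroup.eq_one_iff g).2 h
      rw [this, map_one]
  -- solve in each `P a`
  have hx : ∀ a, ∃ x : Fin n → P a, ∀ i,
      ev ((f a).comp (QuotientGroup.mk' N)) x (w i) = 1 := by
    intro a
    obtain ⟨x, -, hx⟩ := rel_p hp _ (P a) rfl (hPp a) ⊤
      (fun i => Coprod.map ((f a).comp (QuotientGroup.mk' N)) (MonoidHom.id (FreeGroup (Fin n)))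
        (w i)) (hw'.map _) (fun _ => 1) (fun _ => 1) (fun i => Subgroup.mem_top _)
    refine ⟨x, fun i => ?_⟩
    have := hx i
    rw [ev_map] at this
    exact this
  choose x hx using hx
  let q : Fin n → (∀ a, P a) := fun j a => x a j
  have hq : ∀ i, ev θ q (w i) = 1 := by
    intro i
    funext a
    show (Pi.evalMonoidHom P a) (ev θ q (w i)) = 1
    rw [comp_ev_apply]
    exact hx a i
  -- separation
  have hsep : ∀ F : Finset (∀ a, P a), ∃ (R : Type) (_ : Group R) (_ : Finite R)
      (π : (∀ a, P a) →* R), IsPGroup p R ∧ Set.InjOn π (F : Set (∀ a, P a)) := by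
    intro F
    have hd : ∀ t : (∀ a, P a) × (∀ a, P a), ∃ B : Finset A, t.1 ≠ t.2 → ∃ a ∈ B, t.1 a ≠ t.2 a := by
      intro t
      by_cases h : t.1 = t.2
      · exact ⟨∅, fun h' => (h' h).elim⟩
      · obtain ⟨a, ha⟩ := Function.ne_iff.1 h
        exact ⟨{a}, fun _ => ⟨a, by simp, ha⟩⟩
    choose B hB using hd
    let C : Finset A := (F ×ˢ F).biUnion B
    refine ⟨∀ a : C, P a.1, inferInstance, inferInstance,
      MonoidHom.pi fun a => Pi.evalMonoidHom P a.1, isPGroup_pi fun a => hPp a.1, ?_⟩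
    intro u hu v hv huv
    by_contra hne
    obtain ⟨a, ha, hav⟩ := hB (u, v) hne
    have haC : a ∈ C := Finset.mem_biUnion.2 ⟨(u, v), Finset.mem_product.2 ⟨hu, hv⟩, ha⟩
    exact hav (congrFun huv ⟨a, haC⟩)
  -- the kernel
  have hN' : HowieMod p θ.ker := HowieMod.of_equiv (MulEquiv.subgroupCongr hker) hN
  apply SolvableOver.of_map (kk θ) (kk_injective θ)
  have hqk : ∀ i, ev RegularWreathProduct.rightHom q
      (Coprod.map (kk θ) (MonoidHom.id (FreeGroup (Fin n))) (w i)) = 1 := by
    intro i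
    rw [ev_map]
    exact hq i
  apply solvable_of_coord q _ hqk
  apply hN'.infinite
  intro S
  exact dp_coord hp q _ hsep (hw'.map _) hqk S

end P174
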