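import Vale.Agent.P174k.Tower

/-!
# P174: corollaries of the local criterion
-/

namespace P174

open Monoid

theorem expo_map {G G' : Type} [Group G] [Group G'] {n : ℕ} (e : G' →* G) (u : Wd G' (Fin n)) :
    expo (Coprod.map e (MonoidHom.id (FreeGroup (Fin n))) u) = expo u := by
  have h1 : (expo (G := G) (κ := Fin n)).comp
      (Coprod.map e (MonoidHom.id (FreeGroup (Fin n)))) = expo := by
    apply wd_hom_ext
    · intro a
      simp [expo]
    · intro k
      simp [expo]
  rw [← h1]
  rfl

theorem Howie.of_injective {G G' : Type} [Group G] [Group G'] (e : G' →* G)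
    (he : Function.Injective e) (h : Howie G) : Howie G' := by
  intro m n w hw
  apply SolvableOver.of_map e he
  apply h
  unfold Nonsingular
  simp only [expo_map]
  exact hw

theorem howie_iff_mod {G : Type} [Group G] :
    Howie G ↔ ∀ M : ℕ, ∃ p, M < p ∧ p.Prime ∧ HowieMod p G := by
  constructor
  · intro h M
    obtain ⟨p, hp1, hp2⟩ := Nat.exists_infinite_primes (M + 1)
    exact ⟨p, hp1, hp2, h.howieMod hp2⟩
  · exact howie_of_mod

theorem local_onto {G : Type} [Group G]
    (hG : ∀ S : Subgroup G, S.FG → Howie S ∨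
      ∃ f : S →* Multiplicative ℤ, Function.Surjective f) : Howie G := by
  apply howie_local
  intro S hS
  rcases hG S hS with h | ⟨f, hf⟩
  · exact Or.inl h
  · refine Or.inr ⟨f, fun h => ?_⟩
    obtain ⟨s, hs⟩ := hf (Multiplicative.ofAdd 1)
    rw [h] at hs
    exact one_ne_zero (Multiplicative.ofAdd.injective hs.symm : (1 : ℤ) = 0)

theorem localMod_onto {p : ℕ} (hp : p.Prime) {G : Type} [Group G]
    (hG : ∀ S : Subgroup G, S.FG → HowieMod p S ∨
      ∃ f : S →* Multiplicative (ZMod p), Function.Surjective f) : HowieMod p G := by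
  have : Fact p.Prime := ⟨hp⟩
  apply howieMod_local hp
  intro S hS
  rcases hG S hS with h | ⟨f, hf⟩
  · exact Or.inl h
  · refine Or.inr ⟨f, fun h => ?_⟩
    obtain ⟨s, hs⟩ := hf (Multiplicative.ofAdd 1)
    rw [h] at hs
    exact one_ne_zero (Multiplicative.ofAdd.injective hs.symm : (1 : ZMod p) = 0)

/-- alternatives for a finitely generated subgroup of an extension -/
theorem ext_alt {T G : Type} [Group T] [Group G] (N : Subgroup G) [N.Normal]
    (hQ : ∀ S : Subgroup (G ⧸ N), S.FG → S ≠ ⊥ → ∃ f : S →* T, Function.Surjective f)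
    (S : Subgroup G) (hS : S.FG) :
    (∃ e : S →* N, Function.Injective e) ∨ ∃ f : S →* T, Function.Surjective f := by
  by_cases h : S.map (QuotientGroup.mk' N) = ⊥
  · left
    have h1 : S ≤ N := by
      intro s hs
      have h2 : QuotientGroup.mk' N s ∈ S.map (QuotientGroup.mk' N) := Subgroup.mem_map_of_mem _ hs
      rw [h, Subgroup.mem_bot] at h2
      exact (QuotientGroup.eq_one_iff s).1 h2
    exact ⟨Subgroup.inclusion h1, Subgroup.inclusion_injective h1⟩
  · right
    have hFG : (S.map (QuotientGroup.mk' N)).FG := by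
      rw [Subgroup.fg_iff] at hS ⊢
      obtain ⟨s, hs1, hs2⟩ := hS
      refine ⟨(QuotientGroup.mk' N) '' s, ?_, hs2.image _⟩
      rw [← hs1, MonoidHom.map_closure]
    obtain ⟨f, hf⟩ := hQ _ hFG h
    exact ⟨f.comp ((QuotientGroup.mk' N).subgroupMap S),
      hf.comp ((QuotientGroup.mk' N).subgroupMap_surjective S)⟩

theorem ext_onto {G : Type} [Group G] (N : Subgroup G) [N.Normal] (hN : Howie N)
    (hQ : ∀ S : Subgroup (G ⧸ N), S.FG → S ≠ ⊥ →
      ∃ f : S →* Multiplicative ℤ, Function.Surjective f) : Howie G := by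
  apply local_onto
  intro S hS
  rcases ext_alt N hQ S hS with ⟨e, he⟩ | h
  · exact Or.inl (hN.of_injective e he)
  · exact Or.inr h

theorem extMod_onto {p : ℕ} (hp : p.Prime) {G : Type} [Group G] (N : Subgroup G) [N.Normal]
    (hN : HowieMod p N) (hQ : ∀ S : Subgroup (G ⧸ N), S.FG → S ≠ ⊥ →
      ∃ f : S →* Multiplicative (ZMod p), Function.Surjective f) : HowieMod p G := by
  apply localMod_onto hp
  intro S hS
  rcases ext_alt N hQ S hS with ⟨e, he⟩ | h
  · exact Or.inl (hN.of_injective e he)
  · exact Or.inr h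

end P174
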