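import Vale.Agent.P174.Defs

/-!
# P174: groups which map onto a given group
-/

namespace Vale.Agent.P174k

/-- The group `S` is commutative. -/
def IsComm (S : Type) [Group S] : Prop := ∀ a b : S, a * b = b * a

/-- The group `S` maps onto the group `T`. -/
def MapsOnto (S T : Type) [Group S] [Group T] : Prop := ∃ f : S →* T, Function.Surjective f

/-- Every nontrivial finitely generated subgroup of `Q` maps onto `T`. For `T = ℤ` this says that
`Q` is locally indicable, for `T = ℤ/p` that `Q` is locally `p`-indicable. -/
def LocallyOnto (T Q : Type) [Group T] [Group Q] : Prop :=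
  ∀ S : Subgroup Q, S.FG → S ≠ ⊥ → MapsOnto S T

/-- Every finite system over `G` whose exponent-sum matrix has rational rank equal to the number
of equations and whose coefficients all lie in the subgroup `S` is solvable over `G`. -/
def HowieWith {G : Type} [Group G] (S : Subgroup G) : Prop :=
  ∀ (m n : ℕ) (w : Fin m → Monoid.Coprod S (FreeGroup (Fin n))),
    ((P174.expMatrix w).map (Int.cast : ℤ → ℚ)).rank = m →
      P174.SolvableOver fun i =>
        Monoid.Coprod.map S.subtype (MonoidHom.id (FreeGroup (Fin n))) (w i)

end Vale.Agent.P174k
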