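import Vale.Agent.P174k.Rat

/-!
# P174: free products over a subgroup of the coefficient group, lists of letters
-/

namespace P174

open Monoid

section inj

variable {A U : Type} [Group A] (B : Subgroup A)

/-- the two factors of the amalgam -/
def Fac (U : Type) (B : Subgroup A) : Bool → Type
  | true => A
  | false => Wd B U

instance (b : Bool) : Group (Fac U B b) :=
  match b with
  | true => (inferInstance : Group A)
  | false => (inferInstance : Group (Wd B U))

/-- the embeddings of the base -/
def facMap : (b : Bool) → B →* Fac U B b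
  | true => B.subtype
  | false => (Coprod.inl : B →* Wd B U)

theorem facMap_injective (b : Bool) : Function.Injective (facMap (U := U) B b) := by
  cases b
  · exact Coprod.inl_injective
  · exact B.subtype_injective

theorem map_subtype_injective :
    Function.Injective (Coprod.map B.subtype (MonoidHom.id (FreeGroup U))) := by
  let R := PushoutI (facMap (U := U) B)
  let j1 : A →* R := PushoutI.of (φ := facMap (U := U) B) true
  let j2 : Wd B U →* R := PushoutI.of (φ := facMap (U := U) B) false
  have hj : ∀ b : B, j1 b = j2 (Coprod.inl b) := by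
    intro b
    have h1 : j1 b = PushoutI.base (facMap (U := U) B) b :=
      PushoutI.of_apply_eq_base (facMap (U := U) B) true b
    have h2 : j2 (Coprod.inl b) = PushoutI.base (facMap (U := U) B) b :=
      PushoutI.of_apply_eq_base (facMap (U := U) B) false b
    rw [h1, h2]
  have hj2 : Function.Injective j2 :=
    PushoutI.of_injective (facMap_injective (U := U) B) false
  let L : Wd A U →* R := ev j1 (fun u => j2 (Coprod.inr (FreeGroup.of u)))
  have hL : L.comp (Coprod.map B.subtype (MonoidHom.id (FreeGroup U))) = j2 := by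
    apply wd_hom_ext
    · intro a
      simp only [MonoidHom.coe_comp, Function.comp_apply, Coprod.map_apply_inl]
      exact hj a
    · intro k
      simp only [MonoidHom.coe_comp, Function.comp_apply, Coprod.map_apply_inr, MonoidHom.id_apply]
      show ev j1 _ (Coprod.inr (FreeGroup.of k)) = _
      simp
  intro u v huv
  apply hj2
  rw [← hL]
  show L _ = L _
  rw [huv]

end inj

/-- a letter: a coefficient or an unknown with a sign -/
abbrev Lt (A U : Type) : Type := A ⊕ (U × Bool)

section

variable {A U : Type} [Group A]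

/-- value of a letter -/
def lv : Lt A U → Wd A U
  | Sum.inl a => Coprod.inl a
  | Sum.inr (u, true) => Coprod.inr (FreeGroup.of u)
  | Sum.inr (u, false) => (Coprod.inr (FreeGroup.of u))⁻¹

/-- value of a list of letters -/
def pv (l : List (Lt A U)) : Wd A U := (l.map lv).prod

@[simp] theorem pv_nil : pv ([] : List (Lt A U)) = 1 := rfl

@[simp] theorem pv_cons (x : Lt A U) (l : List (Lt A U)) : pv (x :: l) = lv x * pv l := by
  simp [pv]

theorem pv_append (l l' : List (Lt A U)) : pv (l ++ l') = pv l * pv l' := by
  simp [pv]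

/-- inverse letter -/
def li : Lt A U → Lt A U
  | Sum.inl a => Sum.inl a⁻¹
  | Sum.inr (u, b) => Sum.inr (u, !b)

theorem lv_li (x : Lt A U) : lv (li x) = (lv x)⁻¹ := by
  rcases x with a | ⟨u, b⟩
  · simp [lv, li]
  · cases b <;> simp [lv, li]

theorem exists_inv (l : List (Lt A U)) : ∃ l' : List (Lt A U), pv l' = (pv l)⁻¹ := by
  induction l with
  | nil => exact ⟨[], by simp⟩
  | cons x l ih =>
    obtain ⟨l', hl'⟩ := ih
    exact ⟨l' ++ [li x], by simp [pv_append, lv_li, hl']⟩

theorem pv_surjective (u : Wd A U) : ∃ l : List (Lt A U), pv l = u := by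
  let T : Subgroup (Wd A U) :=
    { carrier := {u | ∃ l : List (Lt A U), pv l = u}
      mul_mem' := by
        rintro _ _ ⟨l, rfl⟩ ⟨l', rfl⟩
        exact ⟨l ++ l', pv_append l l'⟩
      one_mem' := ⟨[], rfl⟩
      inv_mem' := by
        rintro _ ⟨l, rfl⟩
        exact exists_inv l }
  have h : ev (Coprod.inl : A →* Wd A U) (fun k => Coprod.inr (FreeGroup.of k)) u ∈ T := by
    apply ev_mem
    · intro a
      exact ⟨[Sum.inl a], by simp [lv]⟩
    · intro k
      exact ⟨[Sum.inr (k, true)], by simp [lv]⟩
  have e : ev (Coprod.inl : A →* Wd A U) (fun k => Coprod.inr (FreeGroup.of k)) =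
      MonoidHom.id (Wd A U) := by
    apply wd_hom_ext
    · intro a
      simp
    · intro k
      simp
  rw [e] at h
  exact h

open Classical in
/-- cost of a letter: nontrivial coefficients cost one -/
noncomputable def cost : Lt A U → ℕ
  | Sum.inl a => if a = 1 then 0 else 1
  | Sum.inr _ => 0

/-- cost of a list -/
noncomputable def mu (l : List (Lt A U)) : ℕ := (l.map cost).sum

@[simp] theorem mu_nil : mu ([] : List (Lt A U)) = 0 := rfl

@[simp] theorem mu_cons (x : Lt A U) (l : List (Lt A U)) : mu (x :: l) = cost x + mu l := by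
  simp [mu]

/-- signed power -/
def sg {H : Type} [Group H] (h : H) (b : Bool) : H := if b then h else h⁻¹

theorem map_sg {H H' : Type} [Group H] [Group H'] (f : H →* H') (h : H) (b : Bool) :
    f (sg h b) = sg (f h) b := by
  cases b <;> simp [sg]

/-- value of one factor of an expression -/
def fv {ι : Type} (r : ι → List (Lt A U)) (e : List (Lt A U) × ι × Bool) : Wd A U :=
  pv e.1 * sg (pv (r e.2.1)) e.2.2 * (pv e.1)⁻¹

/-- value of an expression -/
def vv {ι : Type} (r : ι → List (Lt A U)) (E : List (List (Lt A U) × ι × Bool)) : Wd A U :=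
  (E.map (fv r)).prod

/-- cost of an expression -/
noncomputable def mm {ι : Type} (r : ι → List (Lt A U)) (E : List (List (Lt A U) × ι × Bool)) : ℕ :=
  (E.map (fun e => mu e.1 + mu (r e.2.1))).sum

/-- elements of the normal closure are values of expressions -/
theorem exists_expr {ι : Type} (r : ι → List (Lt A U)) {u : Wd A U}
    (hu : u ∈ Subgroup.normalClosure (Set.range fun i => pv (r i))) :
    ∃ E : List (List (Lt A U) × ι × Bool), vv r E = u := by
  let T : Subgroup (Wd A U) :=
    { carrier := {u | ∃ E : List (List (Lt A U) × ι × Bool), vv r E = u}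
      mul_mem' := by
        rintro _ _ ⟨l, rfl⟩ ⟨l', rfl⟩
        exact ⟨l ++ l', by simp [vv]⟩
      one_mem' := ⟨[], rfl⟩
      inv_mem' := by
        rintro _ ⟨l, rfl⟩
        induction l with
        | nil => exact ⟨[], by simp [vv]⟩
        | cons e l ih =>
          obtain ⟨l', hl'⟩ := ih
          refine ⟨l' ++ [(e.1, e.2.1, !e.2.2)], ?_⟩
          have h1 : fv r (e.1, e.2.1, !e.2.2) = (fv r e)⁻¹ := by
            rcases e with ⟨a, i, b⟩
            cases b <;> simp [fv, sg, mul_assoc]
          have h2 : vv r (l' ++ [(e.1, e.2.1, !e.2.2)]) = vv r l' * fv r (e.1, e.2.1, !e.2.2) := by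
            simp [vv]
          have h3 : vv r (e :: l) = fv r e * vv r l := by simp [vv]
          rw [h2, h1, hl', h3, mul_inv_rev] }
  have hT : T.Normal := ⟨by
    rintro _ ⟨l, rfl⟩ g
    obtain ⟨v, rfl⟩ := pv_surjective g
    refine ⟨l.map (fun e => (v ++ e.1, e.2.1, e.2.2)), ?_⟩
    induction l with
    | nil => simp [vv]
    | cons e l ih =>
      have h3 : ∀ (e : List (Lt A U) × ι × Bool) l, vv r (e :: l) = fv r e * vv r l := by
        intro e l
        simp [vv]
      rw [List.map_cons, h3, h3, ih]
      have h4 : fv r (v ++ e.1, e.2.1, e.2.2) = pv v * fv r e * (pv v)⁻¹ := by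
        simp [fv, pv_append, mul_assoc]
      rw [h4]
      group⟩
  have h1 : Subgroup.normalClosure (Set.range fun i => pv (r i)) ≤ T :=
    Subgroup.normalClosure_le_normal (by
      rintro _ ⟨i, rfl⟩
      exact ⟨[([], i, true)], by simp [vv, fv, sg]⟩)
  exact h1 hu

end

end P174
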