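import Vale.Agent.P174k.Ext

/-!
# P174: comparing rational rank and rank modulo primes
-/

namespace P174

open Monoid

theorem li_rat_of_zmod {m n p : ℕ} (hp : p.Prime) (a : Fin m → Fin n → ℤ)
    (h : LinearIndependent (ZMod p) (fun i k => ((a i k : ℤ) : ZMod p))) :
    LinearIndependent ℚ (fun i k => ((a i k : ℤ) : ℚ)) := by
  classical
  have : Fact p.Prime := ⟨hp⟩
  -- integral relations vanish
  have key : ∀ c : Fin m → ℤ, (∀ k, ∑ i, c i * a i k = 0) → ∀ i, c i = 0 := by
    intro c hc
    by_contra hne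
    push Not at hne
    obtain ⟨i0, hi0⟩ := hne
    obtain ⟨g, hg1, hg2⟩ := Finset.extract_gcd c (s := Finset.univ) ⟨i0, Finset.mem_univ _⟩
    have hgcd : Finset.univ.gcd c ≠ 0 := by
      intro h0
      apply hi0
      rw [hg1 i0 (Finset.mem_univ _), h0, zero_mul]
    have hg3 : ∀ k, ∑ i, g i * a i k = 0 := by
      intro k
      have h1 : (Finset.univ.gcd c) * ∑ i, g i * a i k = 0 := by
        rw [← hc k, Finset.mul_sum]
        apply Finset.sum_congr rfl
        intro i _
        rw [hg1 i (Finset.mem_univ _)]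
        ring
      exact (mul_eq_zero.1 h1).resolve_left hgcd
    have hg4 : ∀ i, ((g i : ℤ) : ZMod p) = 0 := by
      apply Fintype.linearIndependent_iff.1 h
      funext k
      have := congrArg (Int.cast : ℤ → ZMod p) (hg3 k)
      push_cast at this
      simpa [Finset.sum_apply] using this
    have hg5 : (p : ℤ) ∣ Finset.univ.gcd g := by
      apply Finset.dvd_gcd
      intro i _
      exact (ZMod.intCast_zmod_eq_zero_iff_dvd _ _).1 (hg4 i)
    rw [hg2] at hg5
    have := Int.isUnit_iff.1 (isUnit_of_dvd_one hg5)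
    have h2 := hp.two_le
    omega
  rw [Fintype.linearIndependent_iff]
  intro c hc i
  -- clear denominators
  let d : ℕ := ∏ j, (c j).den
  have hd : (d : ℚ) ≠ 0 := by
    have : d ≠ 0 := Finset.prod_ne_zero_iff.2 fun j _ => (c j).den_ne_zero
    exact_mod_cast this
  have hint : ∀ j, ∃ z : ℤ, (z : ℚ) = d * c j := by
    intro j
    obtain ⟨e, he⟩ : (c j).den ∣ d := Finset.dvd_prod_of_mem _ (Finset.mem_univ j)
    refine ⟨e * (c j).num, ?_⟩
    rw [he]
    push_cast
    have h1 : ((c j).den : ℚ) * c j = (c j).num := Rat.den_mul_eq_num (c j)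
    rw [mul_comm ((c j).den : ℚ) e, mul_assoc, h1]
  choose z hz using hint
  have hz0 : z i = 0 := by
    apply key z
    intro k
    have h1 : ((∑ j, z j * a j k : ℤ) : ℚ) = 0 := by
      push_cast
      have h2 := congrFun hc k
      simp only [Finset.sum_apply, Pi.smul_apply, smul_eq_mul, Pi.zero_apply] at h2
      have h3 : ∑ j, (z j : ℚ) * (a j k : ℚ) = d * ∑ j, c j * (a j k : ℚ) := by
        rw [Finset.mul_sum]
        apply Finset.sum_congr rfl
        intro j _
        rw [hz j]
        ring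
      rw [h3, h2, mul_zero]
    exact_mod_cast h1
  have h4 := hz i
  rw [hz0] at h4
  have h5 : (d : ℚ) * c i = 0 := by rw [← h4]; simp
  exact (mul_eq_zero.1 h5).resolve_left hd

theorem Howie.howieMod {p : ℕ} (hp : p.Prime) {G : Type} [Group G] (h : Howie G) :
    HowieMod p G := by
  intro m n w hw
  exact h m n w (li_rat_of_zmod hp _ hw)

theorem li_zmod_of_rat {m n : ℕ} (a : Fin m → Fin n → ℤ)
    (h : LinearIndependent ℚ (fun i k => ((a i k : ℤ) : ℚ))) :
    ∃ d : ℕ, d ≠ 0 ∧ ∀ p : ℕ, p.Prime → ¬ p ∣ d →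
      LinearIndependent (ZMod p) (fun i k => ((a i k : ℤ) : ZMod p)) := by
  classical
  let A : Matrix (Fin m) (Fin n) ℚ := fun i k => ((a i k : ℤ) : ℚ)
  have hr : A.rank = Fintype.card (Fin m) := by
    have : LinearIndependent ℚ A.row := h
    exact this.rank_matrix
  have h2 : Module.finrank ℚ (LinearMap.range A.mulVecLin) =
      Module.finrank ℚ (Fin m → ℚ) := by
    rw [Module.finrank_fintype_fun_eq_card]
    exact hr
  have h3 := Submodule.eq_top_of_finrank_eq h2
  have h4 : ∀ j : Fin m, ∃ y : Fin n → ℚ, A.mulVec y = Pi.single j 1 := by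
    intro j
    have : (Pi.single j 1 : Fin m → ℚ) ∈ LinearMap.range A.mulVecLin := by
      rw [h3]
      trivial
    exact this
  choose y hy using h4
  let d : ℕ := ∏ j, ∏ k, (y j k).den
  have hd : d ≠ 0 := Finset.prod_ne_zero_iff.2 fun j _ => Finset.prod_ne_zero_iff.2
    fun k _ => (y j k).den_ne_zero
  have hint : ∀ j k, ∃ z : ℤ, (z : ℚ) = d * y j k := by
    intro j k
    obtain ⟨e, he⟩ : (y j k).den ∣ d :=
      (Finset.dvd_prod_of_mem _ (Finset.mem_univ k)).trans
        (Finset.dvd_prod_of_mem (fun j => ∏ k, (y j k).den) (Finset.mem_univ j))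
    refine ⟨e * (y j k).num, ?_⟩
    rw [he]
    push_cast
    have h1 : ((y j k).den : ℚ) * y j k = (y j k).num := Rat.den_mul_eq_num (y j k)
    rw [mul_comm ((y j k).den : ℚ) e, mul_assoc, h1]
  choose z hz using hint
  -- the integral identity
  have hA : ∀ i j, ∑ k, a i k * z j k = if i = j then (d : ℤ) else 0 := by
    intro i j
    have h1 : ((∑ k, a i k * z j k : ℤ) : ℚ) = ((if i = j then (d : ℤ) else 0 : ℤ) : ℚ) := by
      push_cast
      have h2 := congrFun (hy j) i
      have h3 : ∑ k, (a i k : ℚ) * (z j k : ℚ) = d * (A.mulVec (y j)) i := by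
        show _ = (d : ℚ) * ∑ k, (a i k : ℚ) * y j k
        rw [Finset.mul_sum]
        apply Finset.sum_congr rfl
        intro k _
        rw [hz j k]
        ring
      rw [h3, h2]
      by_cases hij : i = j
      · subst hij
        simp
      · simp [hij]
    exact_mod_cast h1
  refine ⟨d, hd, fun p hp hpd => ?_⟩
  have : Fact p.Prime := ⟨hp⟩
  rw [Fintype.linearIndependent_iff]
  intro c hc j
  have h5 : ∑ k, (∑ i, c i * ((a i k : ℤ) : ZMod p)) * ((z j k : ℤ) : ZMod p) = 0 := by
    apply Finset.sum_eq_zero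
    intro k _
    have h6 := congrFun hc k
    simp only [Finset.sum_apply, Pi.smul_apply, smul_eq_mul, Pi.zero_apply] at h6
    rw [h6, zero_mul]
  have h7 : ∑ k, (∑ i, c i * ((a i k : ℤ) : ZMod p)) * ((z j k : ℤ) : ZMod p) =
      c j * ((d : ℤ) : ZMod p) := by
    calc ∑ k, (∑ i, c i * ((a i k : ℤ) : ZMod p)) * ((z j k : ℤ) : ZMod p)
        = ∑ i, c i * ∑ k, ((a i k : ℤ) : ZMod p) * ((z j k : ℤ) : ZMod p) := by
          simp_rw [Finset.sum_mul, Finset.mul_sum]
          rw [Finset.sum_comm]
          apply Finset.sum_congr rfl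
          intro i _
          apply Finset.sum_congr rfl
          intro k _
          ring
      _ = ∑ i, c i * (((if i = j then (d : ℤ) else 0 : ℤ)) : ZMod p) := by
          apply Finset.sum_congr rfl
          intro i _
          rw [← hA i j]
          push_cast
          rfl
      _ = c j * ((d : ℤ) : ZMod p) := by
          rw [Finset.sum_eq_single j]
          · simp
          · intro b _ hb
            simp [hb]
          · simp
  rw [h7] at h5
  rcases mul_eq_zero.1 h5 with h8 | h8
  · exact h8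
  · exfalso
    apply hpd
    have : ((d : ℕ) : ZMod p) = 0 := by exact_mod_cast h8
    exact (ZMod.natCast_eq_zero_iff _ _).1 this

/-- if Howie's conjecture holds modulo arbitrarily large primes, it holds -/
theorem howie_of_mod {G : Type} [Group G] (h : ∀ M : ℕ, ∃ p, M < p ∧ p.Prime ∧ HowieMod p G) :
    Howie G := by
  intro m n w hw
  obtain ⟨d, hd, hdp⟩ := li_zmod_of_rat _ hw
  obtain ⟨p, hp1, hp2, hp3⟩ := h d
  apply hp3
  apply hdp p hp2
  intro hpd
  exact absurd (Nat.le_of_dvd (Nat.pos_of_ne_zero hd) hpd) (not_le.2 hp1)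

end P174
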