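import Vale.Agent.P174k.Lift

/-!
# P174: the tower argument
-/

namespace P174

open Monoid

theorem HowieMod.of_injective {p : ℕ} {G G' : Type} [Group G] [Group G'] (e : G' →* G)
    (he : Function.Injective e) (h : HowieMod p G) : HowieMod p G' := by
  intro m n w hw
  apply SolvableOver.of_map e he
  apply h
  have : ∀ u : Wd G' (Fin n), expo (Coprod.map e (MonoidHom.id (FreeGroup (Fin n))) u) =
      expo u := by
    intro u
    have h1 : (expo (G := G) (κ := Fin n)).comp
        (Coprod.map e (MonoidHom.id (FreeGroup (Fin n)))) = expo := by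
      apply wd_hom_ext
      · intro a
        simp [expo]
      · intro k
        simp [expo]
    rw [← h1]
    rfl
  unfold PNonsingular
  simp only [this]
  exact hw

section

variable {A U ι : Type} [Group A]

/-- the coefficient letters of an expression -/
def letS (r : ι → List (Lt A U)) (E : List (List (Lt A U) × ι × Bool)) : Set A :=
  {a | ∃ e ∈ E, Sum.inl a ∈ e.1 ∨ Sum.inl a ∈ r e.2.1}

omit [Group A] in
theorem letS_finite (r : ι → List (Lt A U)) (E : List (List (Lt A U) × ι × Bool)) :
    (letS r E).Finite := by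
  have h1 : ∀ l : List (Lt A U), {a : A | (Sum.inl a : Lt A U) ∈ l}.Finite := by
    intro l
    exact (List.finite_toSet l).preimage (Sum.inl_injective.injOn)
  have h2 : letS r E ⊆ ⋃ e ∈ {e | e ∈ E},
      ({a : A | (Sum.inl a : Lt A U) ∈ e.1} ∪ {a : A | (Sum.inl a : Lt A U) ∈ r e.2.1}) := by
    rintro a ⟨e, he, h⟩
    simp only [Set.mem_iUnion]
    exact ⟨e, he, h⟩
  refine Set.Finite.subset ?_ h2
  apply Set.Finite.biUnion (List.finite_toSet E)
  intro e _
  exact (h1 _).union (h1 _)

variable (B : Subgroup A)

open Classical in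
/-- cut down an element to a subgroup -/
noncomputable def rt (a : A) : B := if h : a ∈ B then ⟨a, h⟩ else 1

theorem rt_of_mem {a : A} (h : a ∈ B) : rt B a = ⟨a, h⟩ := dif_pos h

theorem rt_one : rt B (1 : A) = 1 := rt_of_mem B B.one_mem

/-- cut down a letter to a subgroup -/
noncomputable def rb : Lt A U → Lt B U
  | Sum.inl a => Sum.inl (rt B a)
  | Sum.inr x => Sum.inr x

theorem map_lv_rb (y : Lt A U) (h : ∀ a, y = Sum.inl a → a ∈ B) :
    Coprod.map B.subtype (MonoidHom.id (FreeGroup U)) (lv (rb B y)) = lv y := by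
  rcases y with a | ⟨u, b⟩
  · have h1 := h a rfl
    simp [rb, lv, rt_of_mem B h1]
  · cases b <;> simp [rb, lv]

theorem map_pv_rb (l : List (Lt A U)) (h : ∀ a, Sum.inl a ∈ l → a ∈ B) :
    Coprod.map B.subtype (MonoidHom.id (FreeGroup U)) (pv (l.map (rb B))) = pv l := by
  induction l with
  | nil => simp
  | cons y l ih =>
    rw [List.map_cons, pv_cons, pv_cons, map_mul, map_lv_rb B y, ih]
    · intro a ha
      exact h a (List.mem_cons_of_mem _ ha)
    · intro a ha
      exact h a (by rw [ha]; exact List.mem_cons_self)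

theorem chi_lv {p : ℕ} (y : U → ZMod p) (x : Lt A U) : chi y (lv (rb B x)) = chi y (lv x) := by
  rcases x with a | ⟨u, b⟩
  · simp [rb, lv, chi]
  · cases b <;> simp [rb, lv, chi]

theorem chi_pv {p : ℕ} (y : U → ZMod p) (l : List (Lt A U)) :
    chi y (pv (l.map (rb B))) = chi y (pv l) := by
  induction l with
  | nil => simp
  | cons x l ih => rw [List.map_cons, pv_cons, pv_cons, map_mul, map_mul, ih, chi_lv]

theorem cost_rb (y : Lt A U) : cost (rb B y) ≤ cost y := by
  rcases y with a | x
  · by_cases h : a = 1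
    · subst h
      show cost (Sum.inl (rt B 1) : Lt B U) ≤ _
      simp [cost, rt_one]
    · simp only [rb, cost]
      rw [if_neg h]
      split_ifs <;> simp
  · exact Nat.zero_le _

theorem mu_rb (l : List (Lt A U)) : mu (l.map (rb B)) ≤ mu l := by
  induction l with
  | nil => exact le_refl _
  | cons x l ih =>
    rw [List.map_cons, mu_cons, mu_cons]
    exact add_le_add (cost_rb B x) ih

/-- cut down a factor -/
noncomputable def eb (e : List (Lt A U) × ι × Bool) : List (Lt B U) × ι × Bool :=
  (e.1.map (rb B), e.2)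

theorem mm_eb (r : ι → List (Lt A U)) (E : List (List (Lt A U) × ι × Bool)) :
    mm (fun i => (r i).map (rb B)) (E.map (eb B)) ≤ mm r E := by
  unfold mm
  rw [List.map_map]
  apply List.sum_le_sum
  intro e _
  exact add_le_add (mu_rb B _) (mu_rb B _)

theorem map_vv_eb (r : ι → List (Lt A U)) (E : List (List (Lt A U) × ι × Bool))
    (h : ∀ a ∈ letS r E, a ∈ B) :
    Coprod.map B.subtype (MonoidHom.id (FreeGroup U))
      (vv (fun i => (r i).map (rb B)) (E.map (eb B))) = vv r E := by
  induction E with
  | nil => simp [vv]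
  | cons e E ih =>
    have h3 : ∀ {A' U' ι' : Type} [Group A'] (r' : ι' → List (Lt A' U'))
        (e : List (Lt A' U') × ι' × Bool) l, vv r' (e :: l) = fv r' e * vv r' l := by
      intro A' U' ι' _ r' e l
      simp [vv]
    rw [List.map_cons, h3, h3, map_mul, ih]
    · congr 1
      show Coprod.map B.subtype (MonoidHom.id (FreeGroup U)) (pv (e.1.map (rb B)) *
        sg (pv ((r e.2.1).map (rb B))) e.2.2 * (pv (e.1.map (rb B)))⁻¹) = _
      rw [map_mul, map_mul, map_inv, map_sg, map_pv_rb, map_pv_rb]
      · rfl
      · intro a ha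
        exact h a ⟨e, List.mem_cons_self, Or.inr ha⟩
      · intro a ha
        exact h a ⟨e, List.mem_cons_self, Or.inl ha⟩
    · rintro a ⟨e', he', ha⟩
      exact h a ⟨e', List.mem_cons_of_mem _ he', ha⟩

/-- cutting down an expression to a subgroup which contains its letters -/
theorem cut (r : ι → List (Lt A U)) (E : List (List (Lt A U) × ι × Bool)) (g : A)
    (hg : Coprod.inl g = vv r E) (h : ∀ a ∈ letS r E, a ∈ B) :
    ∃ g1 : B, (g1 : A) = g ∧
      Coprod.inl g1 = vv (fun i => (r i).map (rb B)) (E.map (eb B)) := by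
  let X := vv (fun i => (r i).map (rb B)) (E.map (eb B))
  have hX : Coprod.map B.subtype (MonoidHom.id (FreeGroup U)) X = Coprod.inl g := by
    rw [hg]
    exact map_vv_eb B r E h
  let g1 : B := ev (MonoidHom.id B) (fun _ => 1) X
  have h1 : (g1 : A) = g := by
    have h2 : ev (MonoidHom.id A) (fun _ : U => (1 : A))
        (Coprod.map B.subtype (MonoidHom.id (FreeGroup U)) X) = g := by
      rw [hX, ev_inl]
      rfl
    rw [ev_map] at h2
    rw [← h2]
    show B.subtype (ev (MonoidHom.id B) (fun _ => 1) X) = _
    rw [comp_ev_apply]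
    rfl
  refine ⟨g1, h1, ?_⟩
  apply map_subtype_injective B
  rw [hX, Coprod.map_apply_inl]
  show Coprod.inl (g1 : A) = _
  rw [h1]

/-- solutions kill expressions -/
theorem ev_vv {H : Type} [Group H] (φ : A →* H) (x : U → H) (r : ι → List (Lt A U))
    (h : ∀ i, ev φ x (pv (r i)) = 1) (E : List (List (Lt A U) × ι × Bool)) :
    ev φ x (vv r E) = 1 := by
  induction E with
  | nil => simp [vv]
  | cons e E ih =>
    have h3 : vv r (e :: E) = fv r e * vv r E := by simp [vv]
    rw [h3, map_mul, ih, mul_one]
    unfold fv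
    rw [map_mul, map_mul, map_inv, map_sg, h]
    cases e.2.2 <;> simp [sg]

end

/-- a nontrivial homomorphism to `ℤ/p` is onto -/
theorem surj_of_ne_one {p : ℕ} [Fact p.Prime] {B : Type} [Group B]
    (θ : B →* Multiplicative (ZMod p)) (h : θ ≠ 1) : Function.Surjective θ := by
  have hcard : Nat.card (Multiplicative (ZMod p)) = p := by
    show Nat.card (ZMod p) = p
    simp
  have hp : (Nat.card (Multiplicative (ZMod p))).Prime := by
    rw [hcard]
    exact Fact.out
  have : Fact (Nat.card (Multiplicative (ZMod p))).Prime := ⟨hp⟩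
  rcases Subgroup.eq_bot_or_eq_top_of_prime_card θ.range with h1 | h1
  · exfalso
    apply h
    ext b
    have : θ b ∈ θ.range := ⟨b, rfl⟩
    rw [h1, Subgroup.mem_bot] at this
    rw [this]
    rfl
  · exact MonoidHom.range_eq_top.1 h1

/-- the tower induction -/
theorem tower {p : ℕ} [Fact p.Prime] {G : Type} [Group G]
    (hG : ∀ S : Subgroup G, S.FG → HowieMod p S ∨ ∃ f : S →* Multiplicative (ZMod p), f ≠ 1)
    (n : ℕ) : ∀ (A U ι : Type) [Group A] [Finite U] [Finite ι] (j : A →* G)
      (_ : Function.Injective j) (r : ι → List (Lt A U)) (_ : Dp p (fun i => pv (r i)))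
      (E : List (List (Lt A U) × ι × Bool)) (g : A), mm r E = n →
      (Coprod.inl g : Wd A U) = vv r E → g = 1 := by
  classical
  induction n using Nat.strong_induction_on with
  | _ n ih =>
    intro A U ι _ _ _ j hj r hr E g hn hg
    have hp : p.Prime := Fact.out
    let B : Subgroup A := Subgroup.closure (letS r E)
    have hB : ∀ a ∈ letS r E, a ∈ B := fun a ha => Subgroup.subset_closure ha
    obtain ⟨g1, hg1, hg2⟩ := cut B r E g hg hB
    let r1 : ι → List (Lt B U) := fun i => (r i).map (rb B)
    let E1 := E.map (eb (ι := ι) (U := U) B)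
    have hd : Dp p (fun i => pv (r1 i)) := by
      intro b
      obtain ⟨y, hy⟩ := hr b
      exact ⟨y, fun i => by rw [chi_pv]; exact hy i⟩
    have hFG : (B.map j).FG := by
      rw [Subgroup.fg_iff]
      refine ⟨j '' letS r E, ?_, (letS_finite r E).image j⟩
      rw [← MonoidHom.map_closure]
    rcases hG _ hFG with hS | ⟨f, hf⟩
    · -- everything happens in a good subgroup
      have hBm : HowieMod p B := by
        apply hS.of_injective (j.subgroupMap B)
        intro x y hxy
        have h1 : ((j.subgroupMap B x : B.map j) : G) = ((j.subgroupMap B y : B.map j) : G) := by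
          rw [hxy]
        exact Subtype.ext (hj h1)
      obtain ⟨H, _, φ, x, hφ, hx⟩ := hBm.finite _ hd
      have h1 : φ g1 = 1 := by
        have h2 : ev φ x (Coprod.inl g1) = 1 := by
          rw [hg2]
          exact ev_vv φ x _ hx _
        rwa [ev_inl] at h2
      have h3 : g1 = 1 := (injective_iff_map_eq_one φ).1 hφ g1 h1
      rw [← hg1, h3]
      rfl
    · -- the homomorphism to Z/p
      let θ : B →* Multiplicative (ZMod p) := f.comp (j.subgroupMap B)
      have hθ : θ ≠ 1 := by
        intro h
        apply hf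
        ext y
        obtain ⟨b, rfl⟩ := j.subgroupMap_surjective B y
        have := DFunLike.congr_fun h b
        show Multiplicative.toAdd (f _) = _
        have h2 : f (j.subgroupMap B b) = 1 := this
        rw [h2]
        rfl
      have hsurj : Function.Surjective θ := surj_of_ne_one θ hθ
      -- a letter with nontrivial image
      obtain ⟨a, ha, haθ⟩ : ∃ a, ∃ ha : a ∈ letS r E, θ ⟨a, hB a ha⟩ ≠ 1 := by
        by_contra hcon
        push Not at hcon
        apply hθ
        have h1 : B ≤ θ.ker.map B.subtype := by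
          apply (Subgroup.closure_le _).2
          intro a ha
          exact ⟨⟨a, hB a ha⟩, hcon a ha, rfl⟩
        apply MonoidHom.ext
        intro b
        obtain ⟨c, hc1, hc2⟩ := h1 b.2
        have : c = b := Subtype.ext hc2
        rw [← this]
        exact hc1
      let a1 : B := ⟨a, hB a ha⟩
      have ha1 : a1 ≠ 1 := by
        intro h
        apply haθ
        show θ a1 = 1
        rw [h, map_one]
      -- solve in Z/p
      obtain ⟨q, -, hq⟩ := rel_p hp _ (Multiplicative (ZMod p)) rfl (by
        apply IsPGroup.of_card (n := 1)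
        show Nat.card (ZMod p) = _
        simp) ⊤
        (fun i => Coprod.map θ (MonoidHom.id (FreeGroup U)) (pv (r1 i))) (hd.map θ)
        (fun _ => 1) (fun _ => 1) (fun i => Subgroup.mem_top _)
      have hq' : ∀ i, ev θ q (pv (r1 i)) = 1 := by
        intro i
        have := hq i
        rw [ev_map] at this
        exact this
      have hθg : θ g1 = 1 := by
        have h2 : ev θ q (Coprod.inl g1) = 1 := by
          rw [hg2]
          exact ev_vv θ q _ hq' _
        rwa [ev_inl] at h2
      -- the vertex where the letter is read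
      have hrb : rb (U := U) B (Sum.inl a) = Sum.inl a1 := by
        show Sum.inl (rt B a) = _
        rw [rt_of_mem B (hB a ha)]
      have hlt : ∃ x0, ∀ (s : Multiplicative (ZMod p) → B) (hs : ∀ x, θ (s x) = x),
          (s x0)⁻¹ * a1 * s ((θ a1)⁻¹ * x0) = 1 →
          mm (rl θ s hs q r1) (E1.map (fl θ s hs q)) < mm r1 E1 := by
        obtain ⟨e, he, h⟩ := ha
        have he1 : eb B e ∈ E1 := List.mem_map_of_mem he
        rcases h with h | h
        · have hm : Sum.inl a1 ∈ (eb B e).1 := by
            rw [← hrb]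
            exact List.mem_map_of_mem h
          obtain ⟨x0, hx0⟩ := mu_lfl_lt θ q a1 ha1 (eb B e).1 hm 1
          refine ⟨x0, fun s hs h1 => ?_⟩
          rw [mm_fl]
          apply List.sum_lt_sum
          · intro e' _
            exact add_le_add (mu_lfl θ s hs q _ _) (mu_lfl θ s hs q _ _)
          · exact ⟨eb B e, he1, add_lt_add_of_lt_of_le (hx0 s hs h1) (mu_lfl θ s hs q _ _)⟩
        · have hm : Sum.inl a1 ∈ r1 (eb B e).2.1 := by
            rw [← hrb]
            exact List.mem_map_of_mem h
          obtain ⟨x0, hx0⟩ := mu_lfl_lt θ q a1 ha1 (r1 (eb B e).2.1) hm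
            (ev θ q (pv (eb B e).1))⁻¹
          refine ⟨x0, fun s hs h1 => ?_⟩
          rw [mm_fl]
          apply List.sum_lt_sum
          · intro e' _
            exact add_le_add (mu_lfl θ s hs q _ _) (mu_lfl θ s hs q _ _)
          · exact ⟨eb B e, he1, add_lt_add_of_le_of_lt (mu_lfl θ s hs q _ _) (hx0 s hs h1)⟩
      obtain ⟨x0, hx0⟩ := hlt
      -- the section
      obtain ⟨t, ht⟩ := hsurj.hasRightInverse
      let s : Multiplicative (ZMod p) → B := fun x =>
        if x = (θ a1)⁻¹ * x0 then a1⁻¹ * t x0 else t x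
      have hs : ∀ x, θ (s x) = x := by
        intro x
        by_cases hx : x = (θ a1)⁻¹ * x0
        · have : s x = a1⁻¹ * t x0 := if_pos hx
          rw [this, map_mul, map_inv, ht x0, hx]
        · have : s x = t x := if_neg hx
          rw [this, ht x]
      have hne0 : x0 ≠ (θ a1)⁻¹ * x0 := by
        intro h
        apply haθ
        have h1 : (θ a1)⁻¹ = 1 := by
          have := h.symm
          rwa [mul_eq_right] at this
        exact inv_eq_one.1 h1
      have hs0 : (s x0)⁻¹ * a1 * s ((θ a1)⁻¹ * x0) = 1 := by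
        have h1 : s x0 = t x0 := if_neg hne0
        have h2 : s ((θ a1)⁻¹ * x0) = a1⁻¹ * t x0 := if_pos rfl
        rw [h1, h2]
        group
      have hdec := hx0 s hs hs0
      -- the new system
      have hvv := vv_fl θ s hs q r1 hq' E1
      have hval : (Coprod.inl ((ks θ s hs g1).left 1) : Wd θ.ker (U × Multiplicative (ZMod p))) =
          vv (rl θ s hs q r1) (E1.map (fl θ s hs q)) := by
        rw [hvv.1]
        have : vv r1 E1 = Coprod.inl g1 := hg2.symm
        rw [this, Ps_inl]
      have hle : mm r1 E1 ≤ mm r E := mm_eb B r E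
      have hnew : (ks θ s hs g1).left 1 = 1 := by
        refine ih _ (lt_of_lt_of_le hdec (hle.trans hn.le)) θ.ker (U × Multiplicative (ZMod p))
          (ι × Multiplicative (ZMod p)) (j.comp (B.subtype.comp θ.ker.subtype)) ?_
          (rl θ s hs q r1) ?_ (E1.map (fl θ s hs q)) _ rfl hval
        · -- injectivity
          exact hj.comp (B.subtype_injective.comp θ.ker.subtype_injective)
        · -- nonsingularity
          have := Fintype.ofFinite ι
          intro b
          obtain ⟨y, hy⟩ := dp_coord hp q
            (fun i => Coprod.map (ks θ s hs) (MonoidHom.id (FreeGroup U)) (pv (r1 i)))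
            (fun F => ⟨Multiplicative (ZMod p), inferInstance, inferInstance,
              MonoidHom.id _, by
                apply IsPGroup.of_card (n := 1)
                show Nat.card (ZMod p) = _
                simp, Function.injective_id.injOn⟩)
            (hd.map (ks θ s hs)) (fun i => by
              rw [ev_map]
              exact hq' i) Finset.univ (fun t => b t.1)
          refine ⟨y, fun t => ?_⟩
          have h1 := hy ⟨t, Finset.mem_univ t⟩
          show chi y (pv (lfl θ s hs q (r1 t.1) t.2)) = _
          rw [pv_lfl]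
          exact h1
      have h4 : (s 1)⁻¹ * g1 * s ((θ g1)⁻¹ * 1) = 1 := congrArg Subtype.val hnew
      rw [hθg, inv_one, one_mul] at h4
      have h5 : g1 = 1 := by
        have : g1 = s 1 * ((s 1)⁻¹ * g1 * s 1) * (s 1)⁻¹ := by group
        rw [this, h4]
        group
      rw [← hg1, h5]
      rfl

/-- the local criterion for one prime -/
theorem howieMod_local {p : ℕ} (hp : p.Prime) {G : Type} [Group G]
    (hG : ∀ S : Subgroup G, S.FG → HowieMod p S ∨ ∃ f : S →* Multiplicative (ZMod p), f ≠ 1) :
    HowieMod p G := by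
  have : Fact p.Prime := ⟨hp⟩
  intro m n w hw
  have hw' : Dp p w := (dp_iff w).2 hw
  choose r hr using fun i => pv_surjective (w i)
  have hrw : (fun i => pv (r i)) = w := funext hr
  let R : Subgroup (Wd G (Fin n)) := Subgroup.normalClosure (Set.range fun i => pv (r i))
  refine ⟨Wd G (Fin n) ⧸ R, inferInstance, (QuotientGroup.mk' R).comp Coprod.inl,
    fun k => QuotientGroup.mk' R (Coprod.inr (FreeGroup.of k)), ?_, ?_⟩
  · rw [injective_iff_map_eq_one]
    intro g hg
    have hgR : (Coprod.inl g : Wd G (Fin n)) ∈ R := by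
      have : QuotientGroup.mk' R (Coprod.inl g) = 1 := hg
      rwa [← MonoidHom.mem_ker, QuotientGroup.ker_mk'] at this
    obtain ⟨E, hE⟩ := exists_expr r hgR
    exact tower hG _ G (Fin n) (Fin m) (MonoidHom.id G) Function.injective_id r
      (by rw [hrw]; exact hw') E g rfl hE.symm
  · intro i
    have e : ev ((QuotientGroup.mk' R).comp Coprod.inl)
        (fun k => QuotientGroup.mk' R (Coprod.inr (FreeGroup.of k))) =
        QuotientGroup.mk' R := by
      apply wd_hom_ext
      · intro a
        simp
      · intro k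
        simp
    rw [e, ← MonoidHom.mem_ker, QuotientGroup.ker_mk']
    apply Subgroup.subset_normalClosure
    exact ⟨i, hr i⟩

/-- a nontrivial homomorphism to `ℤ` gives one to `ℤ/p` -/
theorem hom_zmod_of_int {p : ℕ} (hp : p.Prime) {S : Type} [Group S]
    (f : S →* Multiplicative ℤ) (hf : f ≠ 1) : ∃ f' : S →* Multiplicative (ZMod p), f' ≠ 1 := by
  have : Fact p.Prime := ⟨hp⟩
  let R : AddSubgroup ℤ :=
    { carrier := {z | ∃ s, Multiplicative.toAdd (f s) = z}
      add_mem' := by
        rintro _ _ ⟨s, rfl⟩ ⟨t, rfl⟩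
        exact ⟨s * t, by rw [map_mul]; rfl⟩
      zero_mem' := ⟨1, by rw [map_one]; rfl⟩
      neg_mem' := by
        rintro _ ⟨s, rfl⟩
        exact ⟨s⁻¹, by rw [map_inv]; rfl⟩ }
  obtain ⟨k, hk⟩ := Int.subgroup_cyclic R
  have hdiv : ∀ s, k ∣ Multiplicative.toAdd (f s) := by
    intro s
    have h1 : Multiplicative.toAdd (f s) ∈ R := ⟨s, rfl⟩
    rw [hk] at h1
    exact (Int.mem_zmultiples_iff).1 (by simpa [AddSubgroup.zmultiples_eq_closure] using h1)
  have hk0 : k ≠ 0 := by
    intro h0
    apply hf
    ext s
    have h1 := hdiv s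
    rw [h0, zero_dvd_iff] at h1
    rw [h1]
    rfl
  obtain ⟨s1, hs1⟩ : ∃ s, Multiplicative.toAdd (f s) = k := by
    have h1 : k ∈ R := by
      rw [hk]
      exact AddSubgroup.subset_closure rfl
    exact h1
  let f' : S →* Multiplicative (ZMod p) :=
    { toFun := fun s => Multiplicative.ofAdd (((Multiplicative.toAdd (f s) / k : ℤ)) : ZMod p)
      map_one' := by simp
      map_mul' := by
        intro a b
        rw [map_mul, toAdd_mul, Int.add_ediv_of_dvd_left (hdiv a)]
        push_cast
        rfl }
  refine ⟨f', fun h => ?_⟩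
  have h1 : f' s1 = 1 := by rw [h]; rfl
  have h2 : f' s1 = Multiplicative.ofAdd (1 : ZMod p) := by
    show Multiplicative.ofAdd (((Multiplicative.toAdd (f s1) / k : ℤ)) : ZMod p) = _
    rw [hs1, Int.ediv_self hk0, Int.cast_one]
  rw [h2] at h1
  exact one_ne_zero (Multiplicative.ofAdd.injective h1 : (1 : ZMod p) = 0)

/-- the local criterion -/
theorem howie_local {G : Type} [Group G]
    (hG : ∀ S : Subgroup G, S.FG → Howie S ∨ ∃ f : S →* Multiplicative ℤ, f ≠ 1) : Howie G := by
  apply howie_of_mod
  intro M
  obtain ⟨p, hp1, hp2⟩ := Nat.exists_infinite_primes (M + 1)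
  refine ⟨p, hp1, hp2, howieMod_local hp2 fun S hS => ?_⟩
  rcases hG S hS with h | ⟨f, hf⟩
  · exact Or.inl (h.howieMod hp2)
  · exact Or.inr (hom_zmod_of_int hp2 f hf)

end P174
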