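import Vale.Agent.P174k.Lin

/-!
# P174: wreath products, coordinates of a system, compactness
-/

namespace P174

open Monoid

/-- functoriality of the wreath product in the base -/
def wmap {D D' Q : Type} [Group D] [Group D'] [Group Q] (f : D →* D') : D ≀ᵣ Q →* D' ≀ᵣ Q where
  toFun a := ⟨fun x => f (a.left x), a.right⟩
  map_one' := by
    ext x
    · simp
    · rfl
  map_mul' a b := by
    ext x
    · simp
    · rfl

theorem wmap_injective {D D' Q : Type} [Group D] [Group D'] [Group Q] {f : D →* D'}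
    (hf : Function.Injective f) : Function.Injective (wmap (Q := Q) f) := by
  intro a b h
  have h1 : (wmap f a).left = (wmap f b).left := by rw [h]
  have h2 : (wmap f a).right = (wmap f b).right := by rw [h]
  ext x
  · exact hf (congrFun h1 x)
  · exact h2

section

variable {N Q κ ι : Type} [Group N] [Group Q]

/-- the universal unknowns over the wreath product -/
def uu (q : κ → Q) (j : κ) : (Wd N (κ × Q)) ≀ᵣ Q :=
  ⟨fun σ => Coprod.inr (FreeGroup.of (j, σ)), q j⟩

/-- the universal evaluation -/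
def Phi (q : κ → Q) : Wd (N ≀ᵣ Q) κ →* (Wd N (κ × Q)) ≀ᵣ Q := ev (wmap Coprod.inl) (uu q)

/-- the coordinate words -/
def cw (q : κ → Q) (w : ι → Wd (N ≀ᵣ Q) κ) (t : ι × Q) : Wd N (κ × Q) :=
  (Phi q (w t.1)).left t.2

theorem Phi_right (q : κ → Q) (u : Wd (N ≀ᵣ Q) κ) :
    (Phi q u).right = ev RegularWreathProduct.rightHom q u := by
  show RegularWreathProduct.rightHom (ev (wmap Coprod.inl) (uu q) u) = _
  rw [comp_ev_apply]
  rfl

/-- evaluating all coordinates -/
theorem wmap_Phi {H : Type} [Group H] (q : κ → Q) (ψ : N →* H) (y : κ × Q → H)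
    (u : Wd (N ≀ᵣ Q) κ) : wmap (ev ψ y) (Phi q u) =
      ev (wmap ψ) (fun j => (⟨fun σ => y (j, σ), q j⟩ : H ≀ᵣ Q)) u := by
  show wmap (ev ψ y) (ev (wmap Coprod.inl) (uu q) u) = _
  rw [comp_ev_apply]
  congr 1
  congr 1
  funext j
  apply RegularWreathProduct.ext
  · funext σ
    show ev ψ y (Coprod.inr (FreeGroup.of (j, σ))) = y (j, σ)
    simp
  · rfl

/-- a solution of the coordinate system gives a solution over the wreath product -/
theorem solvable_of_coord (q : κ → Q) (w : ι → Wd (N ≀ᵣ Q) κ)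
    (hq : ∀ i, ev RegularWreathProduct.rightHom q (w i) = 1) (h : SolvableOver (cw q w)) :
    SolvableOver w := by
  obtain ⟨H, _, ψ, y, hψ, hy⟩ := h
  refine ⟨H ≀ᵣ Q, inferInstance, wmap ψ, fun j => ⟨fun σ => y (j, σ), q j⟩,
    wmap_injective hψ, fun i => ?_⟩
  rw [← wmap_Phi]
  apply RegularWreathProduct.ext
  · funext σ
    exact hy (i, σ)
  · show (Phi q (w i)).right = 1
    rw [Phi_right, hq i]

end

section

variable {G κ ι : Type} [Group G]

theorem ev_normalClosure {H : Type} [Group H] {φ : G →* H} {x : κ → H} {s : Set (Wd G κ)}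
    (h : ∀ u ∈ s, ev φ x u = 1) {u : Wd G κ} (hu : u ∈ Subgroup.normalClosure s) :
    ev φ x u = 1 := by
  have : Subgroup.normalClosure s ≤ (ev φ x).ker := Subgroup.normalClosure_le_normal (by
    intro v hv
    exact h v hv)
  exact this hu

/-- compactness: an infinite system is solvable when all its finite parts are -/
theorem compact (w : ι → Wd G κ)
    (h : ∀ S : Finset ι, SolvableOver (fun i : S => w i)) : SolvableOver w := by
  classical
  let R : Subgroup (Wd G κ) := Subgroup.normalClosure (Set.range w)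
  refine ⟨Wd G κ ⧸ R, inferInstance, (QuotientGroup.mk' R).comp Coprod.inl,
    fun k => QuotientGroup.mk' R (Coprod.inr (FreeGroup.of k)), ?_, ?_⟩
  · rw [injective_iff_map_eq_one]
    intro g hg
    have hgR : (Coprod.inl g : Wd G κ) ∈ R := by
      have : QuotientGroup.mk' R (Coprod.inl g) = 1 := hg
      rwa [← MonoidHom.mem_ker, QuotientGroup.ker_mk'] at this
    -- the union of the normal closures of finite parts
    let U : Subgroup (Wd G κ) :=
      { carrier := {u | ∃ S : Finset ι, u ∈ Subgroup.normalClosure (w '' (S : Set ι))}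
        mul_mem' := by
          rintro a b ⟨S, hS⟩ ⟨T, hT⟩
          refine ⟨S ∪ T, mul_mem ?_ ?_⟩
          · exact Subgroup.normalClosure_mono (Set.image_mono (by simp)) hS
          · exact Subgroup.normalClosure_mono (Set.image_mono (by simp)) hT
        one_mem' := ⟨∅, one_mem _⟩
        inv_mem' := by
          rintro a ⟨S, hS⟩
          exact ⟨S, inv_mem hS⟩ }
    have hUn : U.Normal := ⟨by
      rintro a ⟨S, hS⟩ g
      exact ⟨S, Subgroup.normalClosure_normal.conj_mem a hS g⟩⟩
    have hRU : R ≤ U := Subgroup.normalClosure_le_normal (by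
      rintro _ ⟨i, rfl⟩
      refine ⟨{i}, Subgroup.subset_normalClosure ⟨i, by simp, rfl⟩⟩)
    obtain ⟨S, hS⟩ := hRU hgR
    obtain ⟨H, _, φ, x, hφ, hx⟩ := h S
    have h1 : ev φ x (Coprod.inl g) = 1 := ev_normalClosure (s := w '' (S : Set ι)) (by
      rintro _ ⟨i, hi, rfl⟩
      exact hx ⟨i, hi⟩) hS
    rw [ev_inl] at h1
    exact (injective_iff_map_eq_one φ).1 hφ g h1
  · intro i
    have e : ev ((QuotientGroup.mk' R).comp Coprod.inl)
        (fun k => QuotientGroup.mk' R (Coprod.inr (FreeGroup.of k))) =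
        QuotientGroup.mk' R := by
      apply wd_hom_ext
      · intro a
        simp
      · intro k
        simp
    rw [e, ← MonoidHom.mem_ker, QuotientGroup.ker_mk']
    exact Subgroup.subset_normalClosure ⟨i, rfl⟩

/-- restriction to a set of unknowns -/
noncomputable def rho (T : Set κ) : Wd G κ →* Wd G T := by
  classical
  exact ev Coprod.inl (fun k => if h : k ∈ T then Coprod.inr (FreeGroup.of ⟨k, h⟩) else 1)

/-- inclusion of a set of unknowns -/
def inc (T : Set κ) : Wd G T →* Wd G κ := ev Coprod.inl (fun k => Coprod.inr (FreeGroup.of k.1))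

theorem ev_inc {H : Type} [Group H] (φ : G →* H) (x : κ → H) (T : Set κ) (u : Wd G T) :
    ev φ x (inc T u) = ev φ (fun k => x k.1) u := by
  show ev φ x (ev Coprod.inl _ u) = _
  rw [comp_ev_apply]
  congr 1
  congr 1
  funext k
  simp

/-- every word uses finitely many unknowns -/
theorem exists_support (u : Wd G κ) : ∃ T0 : Finset κ, ∀ T : Set κ, (T0 : Set κ) ⊆ T →
    inc T (rho T u) = u := by
  classical
  let U : Subgroup (Wd G κ) :=
    { carrier := {u | ∃ T0 : Finset κ, ∀ T : Set κ, (T0 : Set κ) ⊆ T → inc T (rho T u) = u}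
      mul_mem' := by
        rintro a b ⟨S, hS⟩ ⟨T, hT⟩
        refine ⟨S ∪ T, fun V hV => ?_⟩
        rw [map_mul, map_mul, hS V (fun k hk => hV (by simp [Finset.mem_coe.1 hk])),
          hT V (fun k hk => hV (by simp [Finset.mem_coe.1 hk]))]
      one_mem' := ⟨∅, fun T _ => by simp⟩
      inv_mem' := by
        rintro a ⟨S, hS⟩
        exact ⟨S, fun V hV => by rw [map_inv, map_inv, hS V hV]⟩ }
  have h : ev (Coprod.inl : G →* Wd G κ) (fun k => Coprod.inr (FreeGroup.of k)) u ∈ U := by
    apply ev_mem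
    · intro g
      exact ⟨∅, fun T _ => by simp [rho, inc]⟩
    · intro k
      refine ⟨{k}, fun T hT => ?_⟩
      have hk : k ∈ T := hT (by simp)
      simp [rho, inc, hk]
  have e : ev (Coprod.inl : G →* Wd G κ) (fun k => Coprod.inr (FreeGroup.of k)) =
      MonoidHom.id (Wd G κ) := by
    apply wd_hom_ext
    · intro a
      simp
    · intro k
      simp
  rw [e] at h
  exact h

/-- reindexing of systems -/
theorem SolvableOver.of_equiv {κ' ι' : Type} (a : κ ≃ κ') (b : ι ≃ ι') (w : ι → Wd G κ)
    (h : SolvableOver (fun i' : ι' =>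
      ev (Coprod.inl : G →* Wd G κ') (fun k => Coprod.inr (FreeGroup.of (a k))) (w (b.symm i')))) :
    SolvableOver w := by
  obtain ⟨H, _, φ, x, hφ, hx⟩ := h
  refine ⟨H, inferInstance, φ, fun k => x (a k), hφ, fun i => ?_⟩
  have h1 := hx (b i)
  rw [comp_ev_apply, b.symm_apply_apply] at h1
  rw [← h1]
  congr 1
  congr 1
  funext k
  simp

/-- systems with finite index types -/
theorem HowieMod.finite {p : ℕ} [Fact p.Prime] (h : HowieMod p G) [Finite κ] [Finite ι]
    (w : ι → Wd G κ) (hw : Dp p w) : SolvableOver w := by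
  classical
  obtain ⟨n, ⟨a⟩⟩ := Finite.exists_equiv_fin κ
  obtain ⟨m, ⟨b⟩⟩ := Finite.exists_equiv_fin ι
  apply SolvableOver.of_equiv a b
  apply h
  show LinearIndependent (ZMod p) _
  rw [← dp_iff]
  intro c
  obtain ⟨y, hy⟩ := hw (fun i => c (b i))
  refine ⟨fun k => y (a.symm k), fun i' => ?_⟩
  have h1 := hy (b.symm i')
  rw [b.apply_symm_apply] at h1
  rw [← h1]
  show ev 1 _ (ev _ _ _) = ev 1 _ _
  rw [comp_ev_apply]
  congr 1
  congr 1
  funext k
  simp

/-- arbitrary systems whose finite parts are dually `p`-nonsingular -/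
theorem HowieMod.infinite {p : ℕ} [Fact p.Prime] (h : HowieMod p G)
    (w : ι → Wd G κ) (hw : ∀ S : Finset ι, Dp p (fun i : S => w i)) : SolvableOver w := by
  classical
  apply compact
  intro S
  choose T0 hT0 using fun i : S => exists_support (w i)
  let T1 : Finset κ := Finset.univ.biUnion T0
  let T : Set κ := (T1 : Set κ)
  have hT : ∀ i : S, inc T (rho T (w i)) = w i := by
    intro i
    apply hT0
    intro k hk
    exact Finset.mem_biUnion.2 ⟨i, Finset.mem_univ _, hk⟩
  have hfin : Finite T := Finset.finite_toSet T1 |>.to_subtype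
  have h1 : SolvableOver (fun i : S => rho T (w i)) := by
    apply h.finite
    intro b
    obtain ⟨y, hy⟩ := hw S b
    refine ⟨fun k => y k.1, fun i => ?_⟩
    rw [← hy i]
    show ev 1 _ (rho T (w i)) = ev 1 _ (w i)
    conv_rhs => rw [← hT i, ev_inc]
  obtain ⟨H, _, φ, x, hφ, hx⟩ := h1
  refine ⟨H, inferInstance, φ, fun k => if hk : k ∈ T then x ⟨k, hk⟩ else 1, hφ, fun i => ?_⟩
  show ev φ _ (w i) = 1
  rw [← hT i, ev_inc, ← hx i]
  congr 1
  congr 1
  funext k
  simp

end

end P174
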